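import Vale.Agent.P011.H321.SplitP

/-!
A generator of a power of the prime ideal attached to an embedding in the `p`-adic numbers.
-/

set_option autoImplicit false
set_option linter.all false

namespace Vale.Agent.P011UBL

open NumberField IsDedekindDomain

variable {F : Type} [Field F] {p : ℕ} [Fact p.Prime]

theorem n_le (ψ : F →+* ℚ_[p]) {x : F} (hx : IsIntegral ℤ x) : ‖ψ x‖ ≤ 1 := by
  have h : IsIntegral ℤ_[p] (ψ x) := (map_isIntegral_int ψ hx).tower_top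
  obtain ⟨y, hy⟩ := IsIntegrallyClosed.isIntegral_iff.1 h
  rw [← hy]
  exact y.2

theorem ap_int {s : ℚ_[p]} (hs : ‖s‖ ≤ 1) {ε : ℝ} (hε : 0 < ε) : ∃ a : ℤ, ‖s - a‖ ≤ ε := by
  obtain ⟨z, rfl⟩ : ∃ z : ℤ_[p], (z : ℚ_[p]) = s := ⟨⟨_, hs⟩, rfl⟩
  obtain ⟨u, hu⟩ := Metric.denseRange_iff.1 PadicInt.denseRange_intCast z _ hε
  rw [dist_eq_norm, PadicInt.norm_def] at hu
  exact ⟨u, by simpa using hu.le⟩

variable [NumberField F]

/-- The prime ideal of an embedding. -/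
def Qp (ψ : F →+* ℚ_[p]) : HeightOneSpectrum (𝓞 F) where
  asIdeal :=
    { carrier := {x | ‖ψ x‖ < 1}
      add_mem' := fun {a b} ha hb => by
        change ‖ψ ((a : F) + b)‖ < 1
        rw [map_add]
        exact (IsUltrametricDist.norm_add_le_max _ _).trans_lt (max_lt ha hb)
      zero_mem' := by
        change ‖ψ 0‖ < 1
        simp
      smul_mem' := fun c x hx => by
        change ‖ψ ((c : F) * x)‖ < 1
        rw [map_mul, norm_mul]
        exact mul_lt_one_of_nonneg_of_lt_one_right (n_le ψ c.2) (norm_nonneg _) hx }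
  isPrime := ⟨fun h => by
      have h1 : ‖ψ 1‖ < 1 := (Ideal.eq_top_iff_one _).1 h
      simp at h1, fun {a b} h => by
      have h1 : ‖ψ ((a : F) * b)‖ < 1 := h
      rw [map_mul, norm_mul] at h1
      by_contra h2
      rw [not_or] at h2
      exact (one_le_mul_of_one_le_of_one_le (not_lt.1 h2.1) (not_lt.1 h2.2)).not_gt h1⟩
  ne_bot h := by
    have h1 : (p : 𝓞 F) ∈ (⊥ : Ideal (𝓞 F)) := by
      rw [← h]
      change ‖ψ ((p : 𝓞 F) : F)‖ < 1
      simpa using Padic.norm_p_lt_one (p := p)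
    exact (Fact.out : p.Prime).ne_zero (Nat.cast_eq_zero.1 (Ideal.mem_bot.1 h1))

theorem ex_den (ψ : F →+* ℚ_[p]) {t : F} (ht : ‖ψ t‖ ≤ 1) :
    ∃ a : 𝓞 F, a ∉ (Qp ψ).asIdeal ∧ IsIntegral ℤ (t * a) := by
  obtain ⟨n, d, h | h⟩ := (Qp ψ).exists_primeCompl_mul_eq_or_mul_eq (K := F) t
  · exact ⟨d, d.2, by rw [show t * ((d : 𝓞 F) : F) = n from h]; exact n.2⟩
  · have h1 : t * (n : F) = (d : 𝓞 F) := h
    refine ⟨n, fun hn => d.2 ?_, by rw [h1]; exact d.1.2⟩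
    change ‖ψ ((d : 𝓞 F) : F)‖ < 1
    rw [← h1, map_mul, norm_mul]
    exact mul_lt_one_of_nonneg_of_lt_one_right ht (norm_nonneg _) hn

theorem int_of {t : F} (h : ∀ Q : Ideal (𝓞 F), Q.IsMaximal →
    ∃ a : 𝓞 F, a ∉ Q ∧ IsIntegral ℤ (t * a)) : IsIntegral ℤ t := by
  let D : Ideal (𝓞 F) :=
    { carrier := {a | IsIntegral ℤ (t * a)}
      add_mem' := fun {a b} ha hb => by
        change IsIntegral ℤ (t * ((a : F) + b))
        rw [mul_add]
        exact IsIntegral.add ha hb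
      zero_mem' := by
        change IsIntegral ℤ (t * 0)
        rw [mul_zero]
        exact isIntegral_zero
      smul_mem' := fun c x hx => by
        change IsIntegral ℤ (t * ((c : F) * x))
        rw [mul_left_comm]
        exact IsIntegral.mul c.2 hx }
  by_cases hD : D = ⊤
  · have h1 : IsIntegral ℤ (t * 1) := (Ideal.eq_top_iff_one _).1 hD
    rwa [mul_one] at h1
  · obtain ⟨Q, hQ, hle⟩ := Ideal.exists_le_maximal D hD
    obtain ⟨a, ha, h1⟩ := h Q hQ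
    exact (ha (hle h1)).elim

/-- The element `z` lies only in the prime ideal of `ψ`. -/
structure Gn (ψ : F →+* ℚ_[p]) (z : 𝓞 F) : Prop where
  ne : (z : F) ≠ 0
  lt : ‖ψ z‖ < 1
  un : ∀ Q : Ideal (𝓞 F), Q.IsPrime → z ∈ Q → Q = (Qp ψ).asIdeal

theorem ex_gen (ψ : F →+* ℚ_[p]) : ∃ z, Gn ψ z := by
  have h0 : (Qp ψ).asIdeal ∈ nonZeroDivisors (Ideal (𝓞 F)) :=
    mem_nonZeroDivisors_of_ne_zero (Qp ψ).ne_bot
  have hc : 0 < Nat.card (ClassGroup (𝓞 F)) := Nat.card_pos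
  have h1 : ((Qp ψ).asIdeal ^ Nat.card (ClassGroup (𝓞 F))).IsPrincipal := by
    rw [← ClassGroup.mk0_eq_one_iff (pow_mem h0 _)]
    have := pow_card_eq_one' (x := ClassGroup.mk0 ⟨_, h0⟩)
    rwa [← map_pow] at this
  obtain ⟨z, hz⟩ := h1
  have hm : z ∈ (Qp ψ).asIdeal ^ Nat.card (ClassGroup (𝓞 F)) :=
    hz ▸ Submodule.mem_span_singleton_self z
  refine ⟨z, fun h => ?_, Ideal.pow_le_self hc.ne' hm, fun Q hQ h => ?_⟩
  · have h2 : z = 0 := by exact_mod_cast h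
    rw [h2, Submodule.span_zero_singleton] at hz
    exact pow_ne_zero _ (Qp ψ).ne_bot hz
  · refine ((Qp ψ).isMaximal.eq_of_le hQ.ne_top (hQ.le_of_pow_le
      (n := Nat.card (ClassGroup (𝓞 F))) ?_)).symm
    rw [hz]
    exact (Submodule.span_singleton_le_iff_mem _ _).2 h

variable {k : Type} [Field k] [Algebra k F] {ψ : F →+* ℚ_[p]} {z : 𝓞 F}

theorem Gn.int (h : Gn ψ z) (s : Finset (F ≃ₐ[k] F)) {t : F} (ht : ∀ σ ∈ s, ‖ψ (σ.symm t)‖ ≤ 1)
    {n : ℕ} (hn : IsIntegral ℤ (t * (∏ σ ∈ s, σ z) ^ n)) : IsIntegral ℤ t := by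
  refine int_of fun Q hQ => ?_
  have hP := hQ.isPrime
  by_cases h1 : ∃ σ ∈ s, RingOfIntegers.mapRingHom (σ : F →+* F) z ∈ Q
  · obtain ⟨σ, hσ, h1⟩ := h1
    have h2 := h.un (Q.comap (RingOfIntegers.mapRingHom (σ : F →+* F))) inferInstance h1
    obtain ⟨a, ha, h3⟩ := ex_den ψ (ht σ hσ)
    refine ⟨RingOfIntegers.mapRingHom (σ : F →+* F) a, fun h4 => ha (h2 ▸ h4), ?_⟩
    simpa using map_isIntegral_int (σ : F →+* F) h3
  · refine ⟨(∏ σ ∈ s, RingOfIntegers.mapRingHom (σ : F →+* F) z) ^ n,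
      fun h2 => h1 (Ideal.IsPrime.prod_mem_iff.1 (hP.mem_of_pow_mem n h2)), ?_⟩
    simpa using hn

theorem Gn.sep (h : Gn ψ z) (σ : F ≃ₐ[k] F) (hσ : σ ≠ 1) : ‖ψ (σ z)‖ = 1 := by
  refine le_antisymm (n_le ψ (map_isIntegral_int (σ : F →+* F) z.2)) (not_lt.1 fun h1 => hσ ?_)
  have h2 : ∀ x : F, IsIntegral ℤ x → σ x = x := fun x hx => by
    refine ψ.injective (eq_of_forall_dist_le fun ε hε => ?_)
    obtain ⟨n, hn⟩ := exists_pow_lt_of_lt_one (half_pos hε) (max_lt h.lt h1)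
    have h0 : 0 < ‖ψ z‖ ^ n := pow_pos (norm_pos_iff.2 ((map_ne_zero ψ).2 h.ne)) n
    obtain ⟨a, ha⟩ := ap_int (n_le ψ hx) h0
    have hz := pow_ne_zero n h.ne
    have h3 : IsIntegral ℤ ((x - a) / (z : F) ^ n) := h.int (k := k) {1} (n := n) (fun τ hτ => by
      rw [Finset.mem_singleton.1 hτ]
      change ‖ψ ((x - a) / (z : F) ^ n)‖ ≤ 1
      simpa [div_le_one h0] using ha) (by
      simpa [div_mul_cancel₀ _ hz] using hx.sub (isIntegral_intCast a))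
    have h4 := n_le ψ (map_isIntegral_int (σ : F →+* F) h3)
    have h5 : 0 < ‖ψ (σ z)‖ ^ n :=
      pow_pos (norm_pos_iff.2 ((map_ne_zero ψ).2 ((map_ne_zero σ).2 h.ne))) n
    have h6 : ‖ψ (σ x) - a‖ ≤ ‖ψ (σ z)‖ ^ n := by simpa [div_le_one h5] using h4
    have h7 := pow_le_pow_left₀ (norm_nonneg _) (le_max_left ‖ψ z‖ ‖ψ (σ z)‖) n
    have h8 := pow_le_pow_left₀ (norm_nonneg _) (le_max_right ‖ψ z‖ ‖ψ (σ z)‖) n
    have h9 := dist_triangle_right (ψ (σ x)) (ψ x) a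
    rw [dist_eq_norm _ (a : ℚ_[p]), dist_eq_norm _ (a : ℚ_[p])] at h9
    linarith
  ext x
  obtain ⟨a, b, -, rfl⟩ := IsFractionRing.div_surjective (𝓞 F) x
  rw [map_div₀, AlgEquiv.one_apply]
  exact congrArg₂ _ (h2 _ a.2) (h2 _ b.2)

end Vale.Agent.P011UBL
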