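import Vale.Agent.P011UBL.Ar1
import Vale.Agent.P011ND.Box

/-!
The infinite places of a number field together with a `p`-adic place.
-/

set_option autoImplicit false
set_option linter.all false

namespace Vale.Agent.P011UBL

open NumberField Vale.Agent.P011ND

variable {k : Type} [Field k] {p : ℕ} [Fact p.Prime]

/-- The completion at an infinite place. -/
noncomputable def Kw (w : InfinitePlace k) : Subfield ℂ :=
  w.embedding.fieldRange.topologicalClosure

theorem Kw.closed (w : InfinitePlace k) : IsClosed (Kw w : Set ℂ) :=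
  Subfield.isClosed_topologicalClosure _

theorem Kw.re (w : InfinitePlace k) (t : ℝ) : (t : ℂ) ∈ Kw w := by
  rcases Complex.subfield_eq_of_closed (Kw.closed w) with h | h <;> rw [h]
  · exact ⟨t, rfl⟩
  · trivial

theorem Kw.con (w : InfinitePlace k) {C : Set ℂ} (hC : Convex ℝ C) :
    IsPreconnected (((↑) : Kw w → ℂ) ⁻¹' C) := by
  rw [← Topology.IsInducing.subtypeVal.isPreconnected_image]
  refine (Subtype.image_preimage_coe (Kw w : Set ℂ) C).symm ▸
    (Convex.inter (fun x hx y hy a b _ _ _ => ?_) hC).isPreconnected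
  exact add_mem (mul_mem (Kw.re w a) hx) (mul_mem (Kw.re w b) hy)

/-- The completions. -/
def EE (ψ : k →+* ℚ_[p]) : Option (InfinitePlace k) → Type
  | none => ℚ_[p]
  | some w => Kw w

noncomputable instance nnfE (ψ : k →+* ℚ_[p]) : ∀ i, NontriviallyNormedField (EE ψ i)
  | none => inferInstanceAs (NontriviallyNormedField ℚ_[p])
  | some w => { (inferInstance : NormedField (Kw w)) with
      non_trivial := ⟨(2 : Kw w), by
        change (1 : ℝ) < ‖(2 : ℂ)‖
        simp⟩ }

instance properE (ψ : k →+* ℚ_[p]) : ∀ i, ProperSpace (EE ψ i)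
  | none => inferInstanceAs (ProperSpace ℚ_[p])
  | some w => ProperSpace.of_isClosed (Kw.closed w)

noncomputable instance algE (ψ : k →+* ℚ_[p]) : ∀ i, Algebra k (EE ψ i)
  | none => ψ.toAlgebra
  | some w => (w.embedding.codRestrict (Kw w) fun x =>
      Subfield.le_topologicalClosure _ ⟨x, rfl⟩).toAlgebra

variable (ψ : k →+* ℚ_[p])

theorem nm_none (x : k) : ‖algebraMap k (EE ψ none) x‖ = ‖ψ x‖ := rfl

theorem nm_some (w : InfinitePlace k) (x : k) : ‖algebraMap k (EE ψ (some w)) x‖ = w x :=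
  w.norm_embedding_eq x

theorem dn_one [CharZero k] : ∀ i, DenseRange (algebraMap k (EE ψ i))
  | none => (Padic.denseRange_ratCast p).mono (by
      rintro _ ⟨q, rfl⟩
      exact ⟨q, map_ratCast ψ q⟩)
  | some w => fun x => by
      obtain ⟨x, hx⟩ := x
      refine Metric.mem_closure_range_iff.2 fun ε hε => ?_
      exact (Metric.mem_closure_range_iff (e := w.embedding)).1 hx ε hε

/-- The absolute values. -/
noncomputable def av (i : Option (InfinitePlace k)) : AbsoluteValue k ℝ where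
  toFun x := ‖algebraMap k (EE ψ i) x‖
  map_mul' x y := by rw [map_mul, norm_mul]
  nonneg' x := norm_nonneg _
  eq_zero' x := by simp
  add_le' x y := by
    simp only [map_add]
    exact norm_add_le _ _

variable [NumberField k]

theorem dn : DenseRange (algebraMap k (∀ i, EE ψ i)) := by
  have hp : (p : k) ≠ 0 := Nat.cast_ne_zero.2 (Fact.out : p.Prime).ne_zero
  have h0 : av ψ none p < 1 := by
    change ‖ψ p‖ < 1
    simpa using Padic.norm_p_lt_one (p := p)
  have h1 : ∀ w, av ψ (some w) = w.1 := fun w => AbsoluteValue.ext (nm_some ψ w)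
  have h2 : ∀ w, 1 < av ψ (some w) p := fun w => by
    change 1 < ‖w.embedding p‖
    simpa using (Fact.out : p.Prime).one_lt
  have h := AbsoluteValue.denseRange_algebraMap_pi (v := av ψ)
    (fun i => ⟨p, hp, by
      rcases i with _ | w
      exacts [h0.ne, (h2 w).ne']⟩) (by
      rintro (_ | w) (_ | w') hne h
      · exact hne rfl
      · exact (h.lt_one_iff.1 h0).not_gt (h2 w')
      · exact (h.lt_one_iff.2 h0).not_gt (h2 w)
      · rw [h1, h1] at h
        exact hne (congrArg some (InfinitePlace.eq_iff_isEquiv.2 h)))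
  refine Metric.denseRange_iff.2 fun r ε hε => ?_
  choose x hx using fun i => Metric.denseRange_iff.1 (dn_one ψ i) (r i) _ (half_pos hε)
  obtain ⟨y, hy⟩ := Metric.denseRange_iff.1 h (fun i => WithAbs.toAbs _ (x i)) _ (half_pos hε)
  refine ⟨y, (dist_pi_lt_iff hε).2 fun i => ?_⟩
  have h3 := (dist_pi_lt_iff (half_pos hε)).1 hy i
  rw [dist_eq_norm] at h3
  have h4 : ‖algebraMap k (EE ψ i) (x i - y)‖ < ε / 2 := h3
  rw [map_sub, ← dist_eq_norm] at h4
  exact (dist_triangle _ _ _).trans_lt ((add_lt_add (hx i) h4).trans_eq (add_halves ε))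

/-- The numbers which are integral outside `π`. -/
def OO (π : k) (hπ : IsIntegral ℤ π) : Subring k where
  carrier := {x | ∃ n, IsIntegral ℤ (x * π ^ n)}
  mul_mem' := by
    rintro x y ⟨n, hn⟩ ⟨m, hm⟩
    exact ⟨n + m, by rw [pow_add, mul_mul_mul_comm]; exact hn.mul hm⟩
  one_mem' := ⟨0, by simpa using isIntegral_one⟩
  add_mem' := by
    rintro x y ⟨n, hn⟩ ⟨m, hm⟩
    refine ⟨n + m, ?_⟩
    rw [show (x + y) * π ^ (n + m) = x * π ^ n * π ^ m + y * π ^ m * π ^ n by ring]
    exact (hn.mul (hπ.pow m)).add (hm.mul (hπ.pow n))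
  zero_mem' := ⟨0, by simpa using isIntegral_zero⟩
  neg_mem' := by
    rintro x ⟨n, hn⟩
    exact ⟨n, by rw [neg_mul]; exact hn.neg⟩

theorem ex_near : ∃ b : ℝ, ∀ x : k, ∃ c, IsIntegral ℤ c ∧ ∀ w : InfinitePlace k, w (x - c) ≤ b := by
  let B := integralBasis k
  refine ⟨∑ w : InfinitePlace k, ∑ j, w (B j), fun x => ⟨∑ j, (⌊B.repr x j⌋ : ℤ) • B j,
    IsIntegral.sum _ fun j _ => IsIntegral.smul _ (by
      rw [integralBasis_apply]
      exact (RingOfIntegers.basis k j).2), fun w => ?_⟩⟩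
  refine le_trans ?_ (Finset.single_le_sum (f := fun w : InfinitePlace k => ∑ j, w (B j))
    (fun w _ => Finset.sum_nonneg fun j _ => apply_nonneg _ _) (Finset.mem_univ w))
  nth_rewrite 1 [← B.sum_repr x]
  rw [← Finset.sum_sub_distrib]
  refine (w.1.sum_le _ _).trans (Finset.sum_le_sum fun j _ => ?_)
  have e : B.repr x j • B j - (⌊B.repr x j⌋ : ℤ) • B j =
      ((Int.fract (B.repr x j) : ℚ) : k) * B j := by
    rw [Int.fract, Rat.smul_def, zsmul_eq_mul]
    push_cast
    ring
  rw [e, map_mul]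
  refine mul_le_of_le_one_left (apply_nonneg _ _) ?_
  change w _ ≤ 1
  rw [← w.norm_embedding_eq, map_ratCast, Complex.norm_ratCast,
    abs_of_nonneg (by exact_mod_cast Int.fract_nonneg _)]
  exact_mod_cast (Int.fract_lt_one _).le

theorem ex_pw {u : ℚ_[p]} (hu : ‖u‖ < 1) (b : ℝ) : ∃ n : ℕ, b * ‖u‖ ^ n ≤ 1 := by
  obtain ⟨n, hn⟩ := exists_pow_lt_of_lt_one (show 0 < (|b| + 1)⁻¹ by positivity) hu
  refine ⟨n, ?_⟩
  rw [← one_div, lt_div_iff₀ (by positivity)] at hn
  nlinarith [le_abs_self b, pow_nonneg (norm_nonneg u) n]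

theorem pls_OO {π : k} (hπ : IsIntegral ℤ π) (h0 : π ≠ 0) (h1 : ‖ψ π‖ < 1)
    (h2 : ∀ x ∈ OO π hπ, ‖ψ x‖ ≤ 1 → IsIntegral ℤ x) : Pls (EE ψ) (OO π hπ) where
  ne := ⟨none⟩
  cnt := Countable.of_equiv _ (Module.finBasis ℚ k).equivFun.symm.toEquiv
  disc b := by
    obtain ⟨n, hn⟩ := ex_pw (Padic.norm_p_lt_one (p := p)) b
    have hp : (p : k) ^ n ≠ 0 := pow_ne_zero n (Nat.cast_ne_zero.2 (Fact.out : p.Prime).ne_zero)
    refine ((Embeddings.finite_of_norm_le k ℂ (b * p ^ n)).preimage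
      (mul_left_injective₀ hp).injOn).subset ?_
    rintro c ⟨hc, hb⟩
    refine ⟨h2 _ (mul_mem hc (pow_mem (natCast_mem _ p) n)) ?_, fun φ => ?_⟩
    · have h3 : ‖ψ c‖ ≤ b := (norm_le_pi_norm _ none).trans hb
      rw [map_mul, map_pow, map_natCast, norm_mul, norm_pow]
      exact (mul_le_mul_of_nonneg_right h3 (by positivity)).trans hn
    · have h3 := (norm_le_pi_norm _ (some (InfinitePlace.mk φ))).trans hb
      rw [Pi.algebraMap_apply, nm_some, InfinitePlace.apply] at h3
      rw [map_mul, map_pow, map_natCast, norm_mul, norm_pow, Complex.norm_natCast]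
      exact mul_le_mul_of_nonneg_right h3 (by positivity)
  coc := by
    obtain ⟨b, hb⟩ := ex_near (k := k)
    refine ⟨|b| + 2, fun r => ?_⟩
    obtain ⟨y, hy⟩ : ∃ y : ℚ_[p], y = r none := ⟨_, rfl⟩
    obtain ⟨n, hn⟩ := ex_pw h1 ‖y‖
    have h3 : 0 < ‖ψ π‖ ^ n := pow_pos (norm_pos_iff.2 ((map_ne_zero ψ).2 h0)) n
    obtain ⟨a, ha⟩ := ap_int (s := y * ψ π ^ n) (by rwa [norm_mul, norm_pow]) h3
    obtain ⟨x, hx⟩ := Metric.denseRange_iff.1 (dn ψ) r _ one_pos
    obtain ⟨c, hc, h4⟩ := hb (x - a / π ^ n)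
    refine ⟨a / π ^ n + c, add_mem ⟨n, ?_⟩ ⟨0, by simpa using hc⟩,
      (pi_norm_le_iff_of_nonneg (by positivity)).2 fun i => ?_⟩
    · rw [div_mul_cancel₀ _ (pow_ne_zero n h0)]
      exact isIntegral_intCast a
    · rcases i with _ | w
      · have e : (r - algebraMap k (∀ i, EE ψ i) (a / π ^ n + c)) none =
            (y - ψ (a / π ^ n + c) : ℚ_[p]) := by
          rw [hy]
          rfl
        rw [e]
        change ‖y - ψ (a / π ^ n + c)‖ ≤ _
        have h5 : ψ π ≠ 0 := (map_ne_zero ψ).2 h0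
        have e2 : y - ψ (a / π ^ n + c) = (y * ψ π ^ n - a) / ψ π ^ n - ψ c := by
          simp only [map_add, map_div₀, map_pow, map_intCast]
          field_simp
          ring
        rw [e2]
        refine (norm_sub_le _ _).trans ?_
        rw [norm_div, norm_pow]
        linarith [(div_le_one h3).2 ha, n_le ψ hc, abs_nonneg b]
      · have h5 := (dist_pi_lt_iff one_pos).1 hx (some w)
        have h6 := h4 w
        rw [← nm_some ψ, sub_sub, map_sub, ← dist_eq_norm] at h6
        rw [Pi.sub_apply, ← dist_eq_norm]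
        refine (dist_triangle _ (algebraMap k _ x) _).trans ?_
        rw [Pi.algebraMap_apply] at h5 ⊢
        linarith [le_abs_self b]
  dense := dn ψ
  frac x := by
    obtain ⟨a, b, hb, rfl⟩ := IsFractionRing.div_surjective (𝓞 k) x
    have h3 : algebraMap (𝓞 k) k b ≠ 0 := by simpa using nonZeroDivisors.ne_zero hb
    exact ⟨_, ⟨0, by rw [pow_zero, mul_one]; exact b.2⟩, h3, 0, by
      rw [mul_div_cancel₀ _ h3, pow_zero, mul_one]
      exact a.2⟩

end Vale.Agent.P011UBL
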