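import Vale.Agent.P011UBL.Ar2
import Vale.Agent.P011UT4.Defs

/-!
A split place and a unit.
-/

set_option autoImplicit false
set_option linter.all false

namespace Vale.Agent.P011UBL

open NumberField Polynomial

theorem ex_pos {u : ℂ} (hu : u ≠ 0) :
    ∃ m, 0 < m ∧ ∀ j, 0 < j → ∀ s : ℝ, u ^ (m * j) = s → 0 < s := by
  by_cases h : ∃ o, 0 < o ∧ ∃ r : ℝ, u ^ o = r
  · obtain ⟨o, ho, r, hr⟩ := h
    refine ⟨o * 2, by positivity, fun j _ s hs => ?_⟩
    have h0 : r ≠ 0 := fun h => pow_ne_zero o hu (by rw [hr, h, Complex.ofReal_zero])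
    rw [pow_mul, pow_mul, hr] at hs
    rw [← show (r ^ 2) ^ j = s by exact_mod_cast hs]
    positivity
  · exact ⟨1, one_pos, fun j hj s hs => (h ⟨j, hj, s, by rwa [one_mul] at hs⟩).elim⟩

theorem ex_exp {F : Type} [Field F] [NumberField F] {z : F} (hz : z ≠ 0) : ∃ e, 0 < e ∧
    ∀ τ : F →+* ℂ, ∀ t ∈ segment ℝ (0 : ℂ) 1, 1 + τ (z ^ e - 1) * t ≠ 0 := by
  choose m hm h using fun τ : F →+* ℂ => ex_pos ((map_ne_zero τ).2 hz)
  have he : 0 < ∏ τ, m τ := Finset.prod_pos fun τ _ => hm τ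
  refine ⟨_, he, fun τ => ?_⟩
  obtain ⟨j, hj⟩ := Finset.dvd_prod_of_mem m (Finset.mem_univ τ)
  rintro _ ⟨a, b, ha, hb, hab, rfl⟩ h1
  rw [hj] at he h1
  simp only [smul_zero, zero_add, Complex.real_smul, mul_one, map_sub, map_pow, map_one] at h1
  have h2 : (b : ℂ) ≠ 0 := fun h => by simp [h] at h1
  have h3 : 0 < b := hb.lt_of_ne' (by exact_mod_cast h2)
  have h4 := h τ j (Nat.pos_of_mul_pos_left he) (-(a / b)) (by
    have h5 : (a : ℂ) + b = 1 := by exact_mod_cast hab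
    push_cast
    field_simp
    linear_combination h1 + h5)
  linarith [div_nonneg ha hb]

theorem ari : P011UT4.ARI := by
  intro k F _ _ _ _ _ _
  classical
  haveI := NumberField.of_module_finite k F
  obtain ⟨p, _, -, ⟨ψ⟩⟩ := P011.H321.exists_padic_embedding F 0
  obtain ⟨z, hz⟩ := ex_gen ψ
  obtain ⟨e, he, h⟩ := ex_exp hz.ne
  obtain ⟨π, hπ⟩ : ∃ π : k, algebraMap k F π = ∏ σ : F ≃ₐ[k] F, σ z :=
    ⟨_, Algebra.norm_eq_prod_automorphisms k _⟩
  have hi : ∀ x : k, IsIntegral ℤ (algebraMap k F x) ↔ IsIntegral ℤ x := fun x =>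
    isIntegral_algebraMap_iff (algebraMap k F).injective
  have hs : ∀ σ : F ≃ₐ[k] F, IsIntegral ℤ (σ z) := fun σ => map_isIntegral_int (σ : F →+* F) z.2
  have h1 : IsIntegral ℤ π := (hi π).1 (hπ ▸ IsIntegral.prod _ fun σ _ => hs σ)
  have h2 : algebraMap k F π = z * ∏ σ ∈ Finset.univ.erase (1 : F ≃ₐ[k] F), σ z := by
    rw [hπ, ← Finset.mul_prod_erase _ _ (Finset.mem_univ 1), AlgEquiv.one_apply]
  have h0 : algebraMap k F π ≠ 0 :=
    hπ ▸ Finset.prod_ne_zero_iff.2 fun σ _ => (map_ne_zero σ).2 hz.ne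
  have h3 : IsIntegral ℤ (∏ σ ∈ Finset.univ.erase (1 : F ≃ₐ[k] F), σ z) :=
    IsIntegral.prod _ fun σ _ => hs σ
  have h4 : π ≠ 0 := (_root_.map_ne_zero _).1 h0
  refine ⟨_, inferInstance, EE (ψ.comp (algebraMap k F)), inferInstance, inferInstance,
    inferInstance, OO π h1, none, { ψ with commutes' := fun _ => rfl }, (z : F) ^ e,
    pls_OO _ h1 h4 ?_ ?_, pow_ne_zero e hz.ne, ?_, fun σ hσ => ?_,
    IsIntegral.pow (IsIntegral.tower_top (R := ℤ) z.2) e, ?_, ?_⟩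
  · rw [RingHom.comp_apply, h2, map_mul, norm_mul]
    exact mul_lt_one_of_nonneg_of_lt_one_left (norm_nonneg _) hz.lt (n_le ψ h3)
  · rintro x ⟨n, hn⟩ hx
    refine (hi x).1 (hz.int (k := k) Finset.univ (n := n) (fun σ _ => ?_) ?_)
    · rwa [AlgEquiv.commutes]
    · rwa [← hπ, ← map_pow, ← map_mul, hi]
  · change ‖ψ (_ ^ e)‖ < 1
    rw [map_pow, norm_pow]
    exact pow_lt_one₀ (norm_nonneg _) hz.lt he.ne'
  · change ‖ψ (σ (_ ^ e))‖ = 1
    rw [map_pow, map_pow, norm_pow, hz.sep σ hσ, one_pow]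
  · have h5 : π⁻¹ ∈ OO π h1 := ⟨1, by
      rw [pow_one, inv_mul_cancel₀ h4]
      exact isIntegral_one⟩
    have h6 : (z : F)⁻¹ = algebraMap (OO π h1) F ⟨_, h5⟩ *
        ∏ σ ∈ Finset.univ.erase (1 : F ≃ₐ[k] F), σ z := by
      change _ = algebraMap k F π⁻¹ * _
      rw [map_inv₀, eq_inv_mul_iff_mul_eq₀ h0, h2, mul_right_comm, mul_inv_cancel₀ hz.ne, one_mul]
    rw [← inv_pow, h6]
    exact (isIntegral_algebraMap.mul h3.tower_top).pow e
  · rintro (_ | w) hw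
    · exact (hw rfl).elim
    refine ⟨fun r => Kw.con w (convex_closedBall (0 : ℂ) r), fun d hd =>
      ⟨_, Kw.con w (convex_segment (0 : ℂ) 1), left_mem_segment ℝ _ _, right_mem_segment ℝ _ _,
        fun t ht h5 => ?_⟩⟩
    letI := w.embedding.toAlgebra
    let τ : F →ₐ[k] ℂ := IsAlgClosed.lift
    have h6 : eval₂ (τ : F →+* ℂ) (t.1 : ℂ) (d.map (algebraMap k F)) = 0 := by
      have h7 := congrArg (Kw w).subtype h5
      rw [eval₂_map, τ.comp_algebraMap]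
      exact (hom_eval₂ d (algebraMap k (EE (ψ.comp (algebraMap k F)) (some w))) (Kw w).subtype
        t).symm.trans h7
    rw [hd, eval₂_finset_prod, Finset.prod_eq_zero_iff] at h6
    obtain ⟨σ, -, h6⟩ := h6
    refine h ((τ : F →+* ℂ).comp (σ : F →+* F)) _ ht ?_
    rwa [eval₂_add, eval₂_one, eval₂_mul, eval₂_C, eval₂_X] at h6

end Vale.Agent.P011UBL
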