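import Vale.Agent.P011UBL.H9
import Vale.Agent.P011UHT.Gal
import Mathlib.GroupTheory.SpecificGroups.Alternating

/-!
Semilinear maps in small dimension fix a flag over a solvable extension.
-/

set_option autoImplicit false
set_option linter.all false

namespace Vale.Agent.P011UBL

open Matrix IntermediateField Vale.Agent.P011L Vale.Agent.P011U Vale.Agent.P011UHB
open Vale.Agent.P011UHT

theorem alt_pow {α : Type} [Fintype α] [DecidableEq α] {n : ℕ} (h : Nat.card α ≤ n) (hn : n ≤ 3)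
    {g : Equiv.Perm α} (hg : Equiv.Perm.sign g = 1) : g ^ 3 = 1 ∧ (3 ≤ n ∨ g = 1) := by
  rcases subsingleton_or_nontrivial α with e | e
  · exact ⟨Subsingleton.elim _ _, Or.inr (Subsingleton.elim _ _)⟩
  have h1 : g ^ Nat.card (alternatingGroup α) = 1 :=
    congrArg Subtype.val (pow_card_eq_one' (x := (⟨g, hg⟩ : alternatingGroup α)))
  have h2 : 1 < Nat.card α := Finite.one_lt_card
  rw [nat_card_alternatingGroup] at h1
  obtain e | e : Nat.card α = 2 ∨ Nat.card α = 3 := by omega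
  · rw [e] at h1
    obtain rfl : g = 1 := by simpa using h1
    simp
  · rw [e] at h1
    exact ⟨h1, Or.inl (by omega)⟩

variable {k K : Type} [Field k] [Field K] [Algebra k K]

theorem up_le' [IsGalois k K] {H H' : Subgroup Gal(K/k)} {p n : ℕ} (hp : p.Prime)
    (o : IsOpen (H' : Set Gal(K/k))) (a : H' ≤ H) [H'.Normal] (h : ∀ σ ∈ H, σ ^ p ∈ H')
    (h' : ∀ σ ∈ H, p ≤ n ∨ σ ∈ H') : Up {p | p ≤ n} (fixedField H) (fixedField H') := by
  by_cases e : p ≤ n
  · refine Relation.ReflTransGen.mono ?_ _ _ (up_of hp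
      (Subgroup.isClosed_of_isOpen _ (Subgroup.isOpen_mono a o)) (Subgroup.isClosed_of_isOpen _ o) a
      (fun τ m σ _ => Subgroup.Normal.conj_mem inferInstance τ m σ)
      (inf_eq_right.2 a ▸ open_idx (H := H) o) fun σ m => ⟨1, by simpa using h σ m⟩)
    rintro A B ⟨q, hq, h0⟩
    exact ⟨q, (show q = p from hq).trans_le e, h0⟩
  · rw [le_antisymm a fun σ m => (h' σ m).resolve_left e]
    exact .refl

theorem spl_tower [IsGalois k K] (S : Finset K) (hS : ∀ σ : Gal(K/k), ∀ x ∈ S, σ x ∈ S) {n : ℕ}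
    (h : S.card ≤ n) (hn : n ≤ 3) : ∃ F : IntermediateField k K, Up {p | p ≤ n} ⊥ F ∧
      (∀ x ∈ S, x ∈ F) ∧ ∀ σ : Gal(K/k), Fx (F : Set K) (σ ^ n.factorial) := by
  classical
  let X : SubMulAction Gal(K/k) K := ⟨S, fun σ x => hS σ x⟩
  haveI : Fintype X := inferInstanceAs (Fintype S)
  have h1 : Nat.card X ≤ n := (Nat.card_eq_card_finite_toFinset S.finite_toSet).trans_le (by simpa)
  let ρ := MulAction.toPermHom Gal(K/k) X
  have o : IsOpen (ρ.ker : Set Gal(K/k)) := by
    have := finiteDimensional_adjoin (K := k) (S := (S : Set K))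
      fun x _ => Algebra.IsIntegral.isIntegral x
    exact Subgroup.isOpen_mono (fun σ m => Equiv.ext fun x => Subtype.ext
      ((mem_fixingSubgroup_iff _ _).1 m _ (subset_adjoin k _ x.2)))
      (adjoin k (S : Set K)).fixingSubgroup_isOpen
  have a : ρ.ker ≤ (Equiv.Perm.sign.comp ρ).ker := fun σ m => by
    rw [MonoidHom.mem_ker, MonoidHom.comp_apply, show ρ σ = 1 from m, map_one]
  refine ⟨fixedField ρ.ker, InfiniteGalois.fixedField_bot (k := k) (K := K) ▸
    (up_le' (H := ⊤) Nat.prime_two (Subgroup.isOpen_mono a o) le_top (fun σ _ => ?_)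
      fun σ _ => ?_).trans (up_le' Nat.prime_three o a (fun σ m => ?_) fun σ m =>
      (alt_pow h1 hn m).2), fun x hx σ => congrArg Subtype.val (Equiv.congr_fun σ.2 ⟨x, hx⟩),
    fun σ x hx => hx ⟨_, ?_⟩⟩
  · rw [MonoidHom.mem_ker, map_pow, Int.units_sq]
  · refine (le_or_gt 2 n).imp_right fun e => a ?_
    haveI : Subsingleton X := Finite.card_le_one_iff_subsingleton.1 (by omega)
    exact Subsingleton.elim _ _
  · exact (map_pow ρ σ 3).trans (alt_pow h1 hn m).1
  · obtain ⟨c, hc⟩ := Nat.factorial_dvd_factorial h1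
    rw [MonoidHom.mem_ker, map_pow, hc, pow_mul, ← Nat.card_perm, pow_card_eq_one', one_pow]

theorem flg : FLG := by
  intro k K _ _ _ _ l L θ n A hl h1 h2 h3 h4 hn h5 h6
  haveI := Fact.mk hl
  haveI : FiniteDimensional k L := Module.finite_of_finrank_pos (h1 ▸ hl.pos)
  have hc : Nat.card Gal(L/k) = l := (IsGalois.card_aut_eq_finrank k L).trans h1
  let r : Gal(K/k) →* (L →+* L) :=
    { toFun := fun σ => σ.restrictNormal L
      map_one' := congrArg (fun g : Gal(L/k) => (g : L →+* L))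
        (map_one (AlgEquiv.restrictNormalHom (F := k) (K₁ := K) L))
      map_mul' := fun a b => congrArg (fun g : Gal(L/k) => (g : L →+* L))
        (map_mul (AlgEquiv.restrictNormalHom (F := k) (K₁ := K) L) a b) }
  have hr : ∀ σ x, algebraMap L K (r σ x) = σ (algebraMap L K x) := fun σ x =>
    σ.restrictNormal_commutes L x
  have h7 : ∀ σ, r (σ ^ l) = 1 := fun σ => congrArg (fun g : Gal(L/k) => (g : L →+* L))
    (show AlgEquiv.restrictNormalHom L (σ ^ l) = 1 by rw [map_pow, ← hc, pow_card_eq_one'])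
  have h8 : ∀ σ, r σ = 1 → Fx (L : Set K) σ := fun σ e x hx => by
    simpa [e] using (hr σ ⟨x, hx⟩).symm
  have h9 : ∀ σ, ∃ j, r σ = r θ ^ j := fun σ => by
    obtain ⟨j, hj⟩ := mem_powers_of_prime_card hc (g := AlgEquiv.restrictNormalHom L θ)
      (g' := AlgEquiv.restrictNormalHom L σ) fun e =>
        h3 (h8 θ (congrArg (fun g : Gal(L/k) => (g : L →+* L)) e))
    exact ⟨j, by
      rw [← map_pow]
      exact congrArg (fun g : Gal(L/k) => (g : L →+* L)) (hj.symm.trans (map_pow _ θ j).symm)⟩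
  let B : Matrix (Fin n) (Fin n) L := of fun i j => ⟨A.1 i j, h4 i j⟩
  have hB : B.map (algebraMap L K) = A.1 := rfl
  have hA : A.1.det ≠ 0 := A.det_ne_zero
  have h10 : (nm (r θ) B l).charpoly.map (r θ) = (nm (r θ) B l).charpoly := by
    have e := nm_succ (τ := r θ) B l
    rw [nm, ← map_pow, h7] at e
    have u : IsUnit B.det := isUnit_iff_ne_zero.2 fun e => hA (by
      rw [← hB, ← RingHom.mapMatrix_apply, ← RingHom.map_det, e, map_zero])
    rw [← charpoly_map, ← nonsing_inv_mul_cancel_left B ((nm (r θ) B l).map _) u, e,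
      charpoly_mul_comm]
    exact congrArg charpoly (mul_nonsing_inv_cancel_right B _ u)
  have h11 : ∀ σ, (nm (r θ) B l).charpoly.map (r σ) = (nm (r θ) B l).charpoly := fun σ => by
    obtain ⟨j, hj⟩ := h9 σ
    rw [hj]
    clear hj
    induction j with
    | zero => exact Polynomial.map_id
    | succ j ih => rw [pow_succ', RingHom.mul_def, ← Polynomial.map_map, ih, h10]
  have h12 := nm_map (θ := (θ : K →+* K)) (algebraMap L K) (hr θ) B l
  rw [hB] at h12
  classical
  obtain ⟨F, h13, h14, h15⟩ := spl_tower (k := k) (nm (θ : K →+* K) A.1 l).charpoly.roots.toFinset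
    (fun σ x hx => by
      rw [Multiset.mem_toFinset, Polynomial.mem_roots (charpoly_monic _).ne_zero] at hx ⊢
      have := hx.map (f := (σ : K →+* K))
      rwa [← h12, charpoly_map, Polynomial.map_map,
        show (σ : K →+* K).comp (algebraMap L K) = (algebraMap L K).comp (r σ) from
          RingHom.ext fun x => (hr σ x).symm, ← Polynomial.map_map, h11, ← charpoly_map, h12] at this)
    ((Multiset.toFinset_card_le _).trans ((Polynomial.card_roots' _).trans_eq (by simp))) h5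
  obtain ⟨a, -, ha⟩ := Nat.exists_mul_mod_eq_one_of_coprime
    ((Nat.Prime.coprime_iff_not_dvd hl).2 fun e => (hl.dvd_factorial.1 e).not_gt hn).symm hl.one_lt
  have h16 : Fx (F : Set K) (θ ^ (n.factorial * a)) := by
    rw [mul_comm, pow_mul]
    exact h15 _
  have h17 : r (θ ^ (n.factorial * a)) = r θ := by
    rw [← Nat.div_add_mod (n.factorial * a) l, ha, pow_succ, pow_mul, map_mul, map_pow, h7, one_pow,
      one_mul]
  generalize θ ^ (n.factorial * a) = θ' at h16 h17
  have h18 : L ⊔ F ≤ (L ⊔ F).comap (θ' : K →ₐ[k] K) := sup_le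
    (fun x hx => (le_sup_left : L ≤ L ⊔ F) (hr θ' ⟨x, hx⟩ ▸ (r θ' ⟨x, hx⟩).2))
    fun x hx => (le_sup_right : F ≤ L ⊔ F) ((h16 x hx).symm ▸ hx)
  let τ : (L ⊔ F :) →+* (L ⊔ F :) := (θ' : K →+* K).restrict _ _ fun x hx => h18 hx
  have h19 : ∀ j x, algebraMap _ K ((τ ^ j) x) = (θ' ^ j) (algebraMap _ K x) := fun j x => by
    induction j with
    | zero => rfl
    | succ j ih => rw [pow_succ_app, pow_succ', AlgEquiv.mul_apply, ← ih]; rfl
  let C : Matrix (Fin n) (Fin n) (L ⊔ F :) := of fun i j => ⟨A.1 i j, (le_sup_left : L ≤ L ⊔ F) (h4 i j)⟩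
  have hC : C.map (algebraMap _ K) = A.1 := rfl
  have h20 : (nm τ C l).charpoly.map (algebraMap _ K) = (nm (θ : K →+* K) A.1 l).charpoly := by
    rw [← charpoly_map, nm_map (θ := (θ' : K →+* K)) (algebraMap _ K) (fun _ => rfl), hC, ← h12,
      ← h17, nm_map (θ := (θ' : K →+* K)) (algebraMap L K) (hr θ'), hB]
  obtain ⟨m, T, e1, e2, e3⟩ := flgE (τ := τ) hl
    (RingHom.ext fun x => Subtype.ext ((h19 l x).trans ((fx_iff (L := L ⊔ F)).2 (by
      rw [fixingSubgroup_sup]
      exact ⟨fx_iff.1 (h8 _ (h7 _)), pow_mem (fx_iff.1 h16) _⟩) x x.2)))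
    (fun e => h3 (h8 θ (h17 ▸ RingHom.ext fun x => Subtype.ext ((hr θ' x).trans
      (congrArg Subtype.val (RingHom.congr_fun e ⟨x, (le_sup_left : L ≤ L ⊔ F) x.2⟩)))))) hn (B := C)
    (fun e => hA (by rw [← hC, ← RingHom.mapMatrix_apply, ← RingHom.map_det, e, map_zero]))
    (Polynomial.Splits.of_splits_map (algebraMap _ K) (h20 ▸ h6) fun x hx =>
      ⟨⟨x, (le_sup_right : F ≤ L ⊔ F) (h14 x (Multiset.mem_toFinset.2 (h20 ▸ hx)))⟩, rfl⟩)
    fun ν hν => Subtype.ext (h16 _ (h14 _ (Multiset.mem_toFinset.2 (by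
      rw [Polynomial.mem_roots (charpoly_monic _).ne_zero, ← h20]
      exact (Polynomial.isRoot_of_mem_roots hν).map))))
  have e4 : (m.map (algebraMap _ K)).det = 1 := by
    rw [← RingHom.mapMatrix_apply, ← RingHom.map_det, e1, map_one]
  obtain ⟨g, hg⟩ : ∃ g : SA K n, g.1.1 = m.map (algebraMap _ K) :=
    ⟨⟨GeneralLinearGroup.mkOfDetNeZero (m.map (algebraMap _ K)) (e4 ▸ one_ne_zero), Units.ext e4⟩, rfl⟩
  refine ⟨F, θ', g, h13, h16, h8 _ ?_, fun i j => hg ▸ (m i j).2, fun i j h => ?_⟩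
  · rw [map_mul, h17, ← map_mul, inv_mul_cancel, map_one]
  · have e5 := congrArg (·.map (algebraMap _ K)) e3
    simp only [Matrix.map_mul, hC] at e5
    have e6 : A.1 * g.1.1.map θ' = g.1.1 * T.map (algebraMap _ K) := by
      rw [hg]
      exact e5
    rw [mul_assoc, e6, ← mul_assoc, show (g⁻¹).1.1 * g.1.1 = 1 from Units.inv_mul g.1, one_mul,
      map_apply, e2 i j h, map_zero]

end Vale.Agent.P011UBL
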