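import Vale.Agent.P011UHB.Spec
import Mathlib.LinearAlgebra.Matrix.Charpoly.Eigs

/-!
Semilinear maps for a field automorphism of prime order: Hilbert's theorem 90, stable flags.
-/

set_option autoImplicit false
set_option linter.all false

namespace Vale.Agent.P011UBL

open Matrix Submodule Module Vale.Agent.P011L Vale.Agent.P011U Vale.Agent.P011UHB

section core

variable {E V : Type} [Field E] [AddCommGroup V] [Module E V] {τ : E →+* E} {l n : ℕ}

theorem pow_succ_app (j : ℕ) (a : E) : (τ ^ (j + 1)) a = τ ((τ ^ j) a) := by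
  rw [pow_succ']
  rfl

theorem it_smul (φ : V →ₛₗ[τ] V) (j : ℕ) (a : E) (v : V) :
    φ^[j] (a • v) = (τ ^ j) a • φ^[j] v := by
  induction j with
  | zero => rfl
  | succ j ih =>
    rw [Function.iterate_succ_apply', ih, map_smulₛₗ, Function.iterate_succ_apply', pow_succ_app]

/-- the semilinear map with the matrix `B` -/
def sm (τ : E →+* E) (B : Matrix (Fin n) (Fin n) E) : (Fin n → E) →ₛₗ[τ] (Fin n → E) where
  toFun v := B *ᵥ (τ ∘ v)
  map_add' u v := by
    rw [← mulVec_add]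
    congr 1
    exact funext fun i => map_add τ _ _
  map_smul' a v := by
    rw [← mulVec_smul]
    congr 1
    exact funext fun i => map_mul τ _ _

theorem sm_app (B : Matrix (Fin n) (Fin n) E) (v : Fin n → E) : sm τ B v = B *ᵥ (τ ∘ v) := rfl

theorem it_sm (B : Matrix (Fin n) (Fin n) E) (j : ℕ) (v : Fin n → E) :
    (sm τ B)^[j] v = nm τ B j *ᵥ ((τ ^ j : E →+* E) ∘ v) := by
  induction j with
  | zero => simp [nm]
  | succ j ih =>
    rw [Function.iterate_succ_apply', ih, sm_app, nm, ← mulVec_mulVec]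
    congr 1
    funext i
    rw [Function.comp_apply, RingHom.map_mulVec, pow_succ']
    rfl

theorem sm_col (B m : Matrix (Fin n) (Fin n) E) (j : Fin n) :
    sm τ B (m.col j) = (B * m.map τ).col j := rfl

/-- the norm -/
def nr (τ : E →+* E) (j : ℕ) : E →* E := ∏ i ∈ Finset.range j, ((τ ^ i : E →+* E) : E →* E)

theorem nr_app (j : ℕ) (c : E) : nr τ j c = ∏ i ∈ Finset.range j, (τ ^ i) c := by
  simp [nr]

theorem nr_succ (j : ℕ) (c : E) : nr τ (j + 1) c = c * τ (nr τ j c) := by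
  rw [nr_app, nr_app, Finset.prod_range_succ', map_prod, mul_comm]
  simp only [pow_succ_app]
  rfl

theorem nr_fix {c : E} (h : τ c = c) (j : ℕ) : nr τ j c = c ^ j := by
  induction j with
  | zero => simp [nr]
  | succ j ih => rw [nr_succ, ih, map_pow, h, pow_succ']

theorem nm_smul (c : E) (B : Matrix (Fin n) (Fin n) E) (j : ℕ) :
    nm τ (c • B) j = nr τ j c • nm τ B j := by
  induction j with
  | zero => simp [nm, nr]
  | succ j ih =>
    rw [nm, nm, ih, nr_succ, show (nr τ j c • nm τ B j).map τ = τ (nr τ j c) • (nm τ B j).map τ from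
      Matrix.ext fun _ _ => map_mul τ _ _, smul_mul_smul_comm]

theorem det_nm (B : Matrix (Fin n) (Fin n) E) (j : ℕ) : (nm τ B j).det = nr τ j B.det := by
  induction j with
  | zero => simp [nm, nr]
  | succ j ih => rw [nm, det_mul, nr_succ, ← ih, τ.map_det]; rfl

theorem nm_succ (B : Matrix (Fin n) (Fin n) E) (j : ℕ) :
    nm τ B (j + 1) = nm τ B j * B.map (τ ^ j : E →+* E) := by
  induction j with
  | zero => simp [nm]
  | succ j ih =>
    rw [nm, ih, Matrix.map_mul, ← mul_assoc, ← nm, ih, Matrix.map_map, pow_succ']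
    rfl

theorem nm_map {K : Type} [Field K] {θ : K →+* K} (f : E →+* K) (h : ∀ x, f (τ x) = θ (f x))
    (B : Matrix (Fin n) (Fin n) E) (j : ℕ) : (nm τ B j).map f = nm θ (B.map f) j := by
  induction j with
  | zero => simp [nm]
  | succ j ih =>
    rw [nm, nm, Matrix.map_mul, ← ih]
    congr 1
    exact Matrix.ext fun _ _ => h _

variable (hl : l.Prime) (h1 : τ ^ l = 1) (h2 : τ ≠ 1)
include hl h1 h2

theorem span_fix (φ : V →ₛₗ[τ] V) (hφ : ∀ v, φ^[l] v = v) : span E {v | φ v = v} = ⊤ := by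
  haveI := Fact.mk hl
  by_contra h
  obtain ⟨f, f0, hf⟩ := exists_le_ker_of_lt_top _ (lt_top_iff_ne_top.2 h)
  refine f0 (LinearMap.ext fun v => ?_)
  have h3 := orderOf_eq_prime h1 h2
  have li := (linearIndependent_monoidHom E E).comp
    (fun j : Fin l => ((τ ^ (j : ℕ) : E →+* E) : E →* E)) fun i j e =>
      Fin.ext (pow_injOn_Iio_orderOf (x := τ) (h3 ▸ i.2) (h3 ▸ j.2)
        (RingHom.ext fun a => DFunLike.congr_fun e a))
  refine Fintype.linearIndependent_iff.1 li (fun j => f (φ^[j] v)) (funext fun a => ?_) ⟨0, hl.pos⟩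
  have h4 : φ (∑ j ∈ Finset.range l, φ^[j] (a • v)) = ∑ j ∈ Finset.range l, φ^[j] (a • v) := by
    have := (Finset.sum_range_succ' (fun j => φ^[j] (a • v)) l).symm.trans
      (Finset.sum_range_succ _ l)
    rw [hφ] at this
    rw [map_sum, ← add_right_cancel this]
    simp only [Function.iterate_succ_apply']
  have h5 : f _ = 0 := hf (subset_span h4)
  rw [map_sum, Finset.sum_range] at h5
  simpa [it_smul, mul_comm] using h5

theorem h9E {B : Matrix (Fin n) (Fin n) E} (h : nm τ B l = 1) :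
    ∃ m : Matrix (Fin n) (Fin n) E, IsUnit m ∧ B * m.map τ = m := by
  have h3 := span_fix hl h1 h2 (sm τ B) fun v => by rw [it_sm, h, h1, one_mulVec]; rfl
  have h4 := exists_fun_fin_finrank_span_eq E {v | sm τ B v = v}
  rw [h3, finrank_top, finrank_fin_fun] at h4
  obtain ⟨f, a, -, b⟩ := h4
  exact ⟨(of f)ᵀ, linearIndependent_cols_iff_isUnit.1 b, Matrix.ext fun i j => congrFun (a j) i⟩

theorem eigM {B : Matrix (Fin n) (Fin n) E} {ν : E} (h0 : 0 < n) (hn : n < l) (hν : τ ν = ν)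
    (h3 : ν ≠ 0) (h : nm τ B l = ν • 1) : ∃ v ≠ 0, ∃ x : E, sm τ B v = x • v := by
  obtain ⟨a, -, ha⟩ := Nat.exists_mul_mod_eq_one_of_coprime
    (Nat.coprime_of_lt_prime h0.ne' hn hl).symm hl.one_lt
  have h4 : nr τ l B.det = ν ^ n := by rw [← det_nm, h]; simp
  have h5 : B.det ≠ 0 := fun e => by
    obtain ⟨j, rfl⟩ := Nat.exists_eq_succ_of_ne_zero hl.ne_zero
    rw [nr_succ, e, zero_mul] at h4
    exact pow_ne_zero _ h3 h4.symm
  obtain ⟨c, hc⟩ : ∃ c, c * B.det ^ a = ν ^ (n * a / l) := ⟨_, div_mul_cancel₀ _ (pow_ne_zero _ h5)⟩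
  have h6 : nr τ l c * ν = 1 := by
    have := congrArg (nr τ l) hc
    rw [map_mul, map_pow, map_pow, h4, nr_fix hν, ← pow_mul, ← pow_mul, ← Nat.div_add_mod (n * a) l,
      ha, Nat.mul_add_div hl.pos, Nat.div_eq_of_lt hl.one_lt, add_zero, pow_succ', ← mul_assoc] at this
    exact mul_right_cancel₀ (pow_ne_zero _ h3) (this.trans (one_mul _).symm)
  have h7 : c ≠ 0 := by
    rintro rfl
    exact pow_ne_zero _ h3 (hc.symm.trans (zero_mul _))
  obtain ⟨m, hm, e⟩ := h9E hl h1 h2 (B := c • B) (by rw [nm_smul, h, smul_smul, h6, one_smul])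
  refine ⟨m.col ⟨0, h0⟩, (linearIndependent_cols_iff_isUnit.2 hm).ne_zero _, c⁻¹, ?_⟩
  rw [sm_col, eq_inv_smul_iff₀ h7]
  nth_rewrite 2 [← e]
  rw [smul_mul_assoc]
  rfl

variable [FiniteDimensional E V] (hn : finrank E V < l) (φ : V →ₛₗ[τ] V)
include hn

theorem eig0 [Nontrivial V] {ν : E} (hν : τ ν = ν) (h3 : ν ≠ 0) (h : ∀ v, φ^[l] v = ν • v) :
    ∃ v ≠ 0, ∃ x : E, φ v = x • v := by
  let b := finBasis E V
  let B : Matrix _ _ E := of fun i j => b.equivFun (φ (b j)) i
  have h4 : Function.Semiconj b.equivFun φ (sm τ B) := fun v => by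
    conv_lhs => rw [← b.sum_equivFun v]
    funext i
    simp only [map_sum, map_smulₛₗ, Finset.sum_apply, Pi.smul_apply, smul_eq_mul, RingHom.id_apply]
    exact Finset.sum_congr rfl fun j _ => mul_comm _ _
  obtain ⟨v, hv, x, e⟩ := eigM hl h1 h2 (B := B) finrank_pos hn hν h3 (by
    refine Matrix.toLin'.injective (LinearMap.ext fun u => ?_)
    obtain ⟨v, rfl⟩ := b.equivFun.surjective u
    have := h4.iterate_right l v
    rw [h, it_sm, h1] at this
    simpa [smul_mulVec] using this.symm)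
  obtain ⟨v, rfl⟩ := b.equivFun.surjective v
  exact ⟨v, fun e => hv (by simp [e]), x, b.equivFun.injective (by rw [h4, e, map_smul])⟩

theorem eig1 {N : V →ₗ[E] V} (h : ∀ v, φ^[l] v = N v) {ν : E} (hν : τ ν = ν) (h3 : ν ≠ 0) {u : V}
    (hu : u ≠ 0) (h4 : N u = ν • u) : ∃ v ≠ 0, ∃ x : E, φ v = x • v := by
  let U := LinearMap.eqLocus N (ν • LinearMap.id)
  have h5 : ∀ v : U, φ v ∈ U := fun v => by
    show N _ = ν • _
    rw [← h, ← Function.iterate_succ_apply, Function.iterate_succ_apply', h,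
      show N v = ν • (v : V) from v.2, map_smulₛₗ, hν]
    rfl
  haveI : Nontrivial U := ⟨⟨u, h4⟩, 0, fun e => hu (congrArg Subtype.val e)⟩
  have h6 : Function.Semiconj U.subtype ((φ.domRestrict U).codRestrict U h5) φ := fun _ => rfl
  obtain ⟨v, hv, x, e⟩ := eig0 hl h1 h2 (U.finrank_le.trans_lt hn)
    ((φ.domRestrict U).codRestrict U h5) hν h3 fun v =>
      Subtype.ext ((h6.iterate_right l v).trans ((h _).trans v.2))
  exact ⟨v, fun e => hv (Subtype.ext e), x, congrArg Subtype.val e⟩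

variable {N : V →ₗ[E] V} (h : ∀ v, φ^[l] v = N v) {s : List E} (hs : ∀ ν ∈ s, τ ν = ν ∧ ν ≠ 0)
  (h0 : (s.map fun ν => N - ν • (1 : End E V)).prod = 0)
include h hs h0

theorem eig2 {W : Submodule E V} (hW : W ≤ W.comap φ) (h3 : W ≠ ⊤) :
    ∃ v ∉ W, ∃ x : E, φ v - x • v ∈ W := by
  obtain ⟨ν, hν, u, hu, e⟩ : ∃ ν ∈ s, ∃ u ∉ W, N u - ν • u ∈ W := by
    by_contra c
    push Not at c
    have : ∀ u ∉ W, (s.map fun ν => N - ν • (1 : End E V)).prod u ∉ W := by
      clear h0 hs
      induction s with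
      | nil => exact fun _ h => h
      | cons a s ih =>
        exact fun u hu => c a List.mem_cons_self _
          (ih (fun ν h => c ν (List.mem_cons_of_mem _ h)) u hu)
    obtain ⟨u, -, hu⟩ := SetLike.exists_of_lt (lt_top_iff_ne_top.2 h3)
    exact this u hu (h0 ▸ W.zero_mem)
  have h4 : Function.Semiconj W.mkQ φ (W.mapQ W φ hW) := fun _ => rfl
  have h5 : W ≤ W.comap N := fun v hv => by
    rw [mem_comap, ← h]
    exact Set.MapsTo.iterate (s := (W : Set V)) (fun v hv => hW hv) l hv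
  obtain ⟨v, hv, x, e'⟩ := eig1 hl h1 h2 ((W.finrank_quotient_le).trans_lt hn) (W.mapQ W φ hW)
    (N := W.mapQ W N h5) (fun q => by
      obtain ⟨v, rfl⟩ := W.mkQ_surjective q
      rw [← h4.iterate_right l v, h]
      rfl) (hs ν hν).1 (hs ν hν).2 (u := W.mkQ u) (fun e => hu ((Quotient.mk_eq_zero W).1 e))
    ((Submodule.Quotient.eq W).2 e)
  obtain ⟨v, rfl⟩ := W.mkQ_surjective v
  exact ⟨v, fun e => hv ((Quotient.mk_eq_zero W).2 e), x, (Submodule.Quotient.eq W).1 e'⟩

theorem flag (j : ℕ) (hj : j ≤ finrank E V) :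
    ∃ v : Fin j → V, LinearIndependent E v ∧ ∀ i, φ (v i) ∈ span E (v '' Set.Iic i) := by
  induction j with
  | zero => exact ⟨Fin.elim0, linearIndependent_empty_type, fun i => i.elim0⟩
  | succ j ih =>
    obtain ⟨v, hv, h3⟩ := ih (by omega)
    obtain ⟨u, hu, x, e⟩ := eig2 hl h1 h2 hn φ h hs h0 (W := span E (Set.range v))
      (span_le.2 (by
        rintro _ ⟨i, rfl⟩
        exact span_mono (Set.image_subset_range _ _) (h3 i))) fun e => by
      have := finrank_span_eq_card hv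
      rw [e, finrank_top, Fintype.card_fin] at this
      omega
    refine ⟨Fin.snoc v u, linearIndependent_finSnoc.2 ⟨hv, hu⟩, fun i => ?_⟩
    induction i using Fin.lastCases with
    | last =>
      rw [Fin.snoc_last, ← sub_add_cancel (φ u) (x • u)]
      refine add_mem (span_mono ?_ e) (smul_mem _ _ (subset_span ⟨Fin.last j, Fin.le_last _, by simp⟩))
      rintro _ ⟨i, rfl⟩
      exact ⟨i.castSucc, Fin.le_last _, by simp⟩
    | cast i =>
      rw [Fin.snoc_castSucc]
      refine span_mono ?_ (h3 i)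
      rintro _ ⟨a, ha, rfl⟩
      exact ⟨a.castSucc, Fin.castSucc_le_castSucc_iff.2 ha, by simp⟩

end core

theorem flgE {E : Type} [Field E] {τ : E →+* E} {l n : ℕ} (hl : l.Prime) (h1 : τ ^ l = 1)
    (h2 : τ ≠ 1) (hn : n < l) {B : Matrix (Fin n) (Fin n) E} (hB : B.det ≠ 0)
    (h3 : (nm τ B l).charpoly.Splits) (h4 : ∀ ν ∈ (nm τ B l).charpoly.roots, τ ν = ν) :
    ∃ m T : Matrix (Fin n) (Fin n) E, m.det = 1 ∧ (∀ i j, j < i → T i j = 0) ∧
      B * m.map τ = m * T := by
  have h5 : ∀ ν ∈ (nm τ B l).charpoly.roots, ν ≠ 0 := by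
    rintro _ h rfl
    have := det_eq_prod_roots_charpoly_of_splits h3
    rw [Multiset.prod_eq_zero h, det_nm, nr_app, Finset.prod_eq_zero_iff] at this
    obtain ⟨i, -, e⟩ := this
    exact hB ((_root_.map_eq_zero _).1 e)
  obtain ⟨v, hv, h6⟩ := flag hl h1 h2 (by rwa [finrank_fin_fun]) (sm τ B)
    (N := toLinAlgEquiv' (nm τ B l)) (fun v => by rw [it_sm, h1]; rfl)
    (s := (nm τ B l).charpoly.roots.toList)
    (fun ν h => ⟨h4 ν (Multiset.mem_toList.1 h), h5 ν (Multiset.mem_toList.1 h)⟩) (by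
      have := congrArg toLinAlgEquiv' (aeval_self_charpoly (nm τ B l))
      rw [map_zero, ← Polynomial.aeval_algHom_apply,
        h3.eq_prod_roots_of_monic (charpoly_monic _), ← Multiset.prod_map_toList, map_list_prod,
        List.map_map] at this
      simpa [Function.comp_def, Algebra.algebraMap_eq_smul_one] using this) n
    (by rw [finrank_fin_fun])
  have h7 : ∀ j, ∀ u ∈ span E (v '' Set.Iic j), ∃ c : Fin n → E, (∀ i, j < i → c i = 0) ∧
      u = (of v)ᵀ *ᵥ c := fun j u hu => by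
    induction hu using span_induction with
    | mem _ h =>
      obtain ⟨a, ha, rfl⟩ := h
      exact ⟨Pi.single a 1, fun i hi => Pi.single_eq_of_ne (ha.trans_lt hi).ne' _, by
        rw [mulVec_single_one]; rfl⟩
    | zero => exact ⟨0, fun _ _ => rfl, by simp⟩
    | add _ _ _ _ a b =>
      obtain ⟨c, a, rfl⟩ := a
      obtain ⟨d, b, rfl⟩ := b
      exact ⟨c + d, fun i hi => by simp [a i hi, b i hi], (mulVec_add _ _ _).symm⟩
    | smul x _ _ a =>
      obtain ⟨c, a, rfl⟩ := a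
      exact ⟨x • c, fun i hi => by simp [a i hi], (mulVec_smul _ _ _).symm⟩
  choose c h8 h9 using fun j => h7 j _ (h6 j)
  have h10 : B * (of v)ᵀ.map τ = (of v)ᵀ * (of c)ᵀ := Matrix.ext fun i j => congrFun (h9 j) i
  have h11 : (of v)ᵀ.det ≠ 0 :=
    ((isUnit_iff_isUnit_det _).1 (linearIndependent_cols_iff_isUnit.1 hv)).ne_zero
  generalize (of v)ᵀ = m at h10 h11
  rcases Nat.eq_zero_or_pos n with rfl | h0
  · exact ⟨1, 0, det_one, fun _ _ _ => rfl, Subsingleton.elim _ _⟩
  let d : Fin n → E := Pi.mulSingle ⟨0, h0⟩ m.det⁻¹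
  have hd : ∀ i, d i ≠ 0 := fun i => by
    simp only [d, Pi.mulSingle_apply]
    split_ifs <;> simp [h11]
  refine ⟨m * diagonal d, diagonal d⁻¹ * (of c)ᵀ * (diagonal d).map τ, ?_, fun i j h => ?_, ?_⟩
  · rw [det_mul, det_diagonal, Finset.prod_pi_mulSingle']
    simp [h11]
  · rw [diagonal_map (map_zero τ), mul_diagonal, diagonal_mul, transpose_apply, of_apply, h8 j i h]
    simp
  · rw [Matrix.map_mul, ← mul_assoc, h10, mul_assoc m (diagonal d), ← mul_assoc (diagonal d),
      ← mul_assoc (diagonal d), diagonal_mul_diagonal,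
      show (fun i => d i * d⁻¹ i) = fun _ => 1 from funext fun i => mul_inv_cancel₀ (hd i),
      diagonal_one, one_mul, mul_assoc]

end Vale.Agent.P011UBL
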