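import Vale.Agent.P011UHB.Spec

/-!
The building of a group with root subgroups; endomorphisms which normalise the torus.
-/

set_option autoImplicit false
set_option linter.all false

namespace Vale.Agent.P011UBL

open Matrix Subgroup Vale.Agent.P011L Vale.Agent.P183CH Vale.Agent.P011U Vale.Agent.P011UHB
open Vale.Agent.P011UP
open Vale.Agent.P011UC (pa ch)

variable {R : RS} {K G : Type} [Field K] [Group G] {Γ : RG R K G} {π : Equiv.Perm (Fin R.r)}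
  {g h n b : G} {w w' : R.Aut} {J : Set (Fin R.r)}

theorem pa_app (γ : R.Q) : pa R π γ = pm π γ := rfl

theorem pa_sE (hR : R.Ok) (hπ : Dg R π) (i : Fin R.r) :
    R.sE (π i) = pa R π * R.sE i * (pa R π)⁻¹ :=
  eq_mul_inv_of_mul_eq (LinearEquiv.ext fun γ => by
    rw [RS.mul_app, RS.mul_app, hR.sE_apply, hR.sE_apply, pa_app, pa_app, pm_s hπ])

theorem ch_add (c : Fin R.r → Kˣ) (γ δ : R.Q) : ch c (γ + δ) = ch c γ * ch c δ := by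
  simp [ch, zpow_add, Finset.prod_mul_distrib]

theorem ch_α (c : Fin R.r → Kˣ) (i : Fin R.r) (m : ℤ) : ch c (m • R.α i) = c i ^ m := by
  rw [ch, Finset.prod_eq_single i (fun j _ hj => by simp [RS.α_apply, hj]) (by simp)]
  simp [RS.α_apply]

theorem ch_s (c : Fin R.r → Kˣ) (i : Fin R.r) (γ : R.Q) :
    ch c (R.s i γ) = ch c γ * c i ^ (-R.pr γ i) := by
  rw [RS.s, sub_eq_add_neg, ← neg_smul, ch_add, ch_α]

theorem sg_sq (e : ℤˣ) : ((e : ℤ) : K) * ((e : ℤ) : K) = 1 := by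
  rcases Int.units_eq_one_or e with rfl | rfl <;> simp

theorem cell_rep (hn : Γ.Rep n w) : Cell Γ n w := ⟨1, one_mem _, n, 1, one_mem _, hn, by simp⟩

theorem cell_l (hb : b ∈ Γ.Bo) : Cell Γ g w → Cell Γ (b * g) w := by
  rintro ⟨a, ha, n, a', ha', hn, rfl⟩
  exact ⟨_, mul_mem hb ha, n, a', ha', hn, by group⟩

theorem cell_r (hb : b ∈ Γ.Bo) : Cell Γ g w → Cell Γ (g * b) w := by
  rintro ⟨a, ha, n, a', ha', hn, rfl⟩
  exact ⟨a, ha, n, _, mul_mem ha' hb, hn, by group⟩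

theorem cell_inv : Cell Γ g w → Cell Γ g⁻¹ w⁻¹ := by
  rintro ⟨a, ha, n, a', ha', hn, rfl⟩
  exact ⟨_, inv_mem ha', _, _, inv_mem ha, hn.inv, by group⟩

theorem cell_W : Cell Γ g w → w ∈ R.W := fun ⟨_, _, _, _, _, hn, _⟩ => hn.mem_W

theorem cell_Bo (hb : b ∈ Γ.Bo) : Cell Γ b 1 := by
  simpa using cell_l hb (cell_rep (RG.rep_T (one_mem Γ.T)))

variable (hΓ : Γ.Ok) (hR : R.Ok)
include hΓ hR

theorem rep_nm (hn : Γ.Rep n w) :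
    ∃ χ, Ml χ ∧ Nm Γ R.Φ (fun v => n * v * n⁻¹) id w χ := by
  refine hn.ind (P := fun n w => ∃ χ, Ml χ ∧ Nm Γ R.Φ (fun v => n * v * n⁻¹) id w χ)
    (fun i => ⟨1, fun _ _ => by simp, fun γ hγ => ?_⟩)
    (fun t ht => ⟨fun γ => hΓ.chi γ t, fun _ _ => hΓ.chi_add _ _ _, fun γ hγ => ⟨1, fun u => ?_⟩⟩)
    ?_ ?_
  · obtain ⟨ε, hε⟩ := hΓ.nx i γ hγ
    exact ⟨ε, fun u => by simpa [hR.sE_apply] using hε u⟩
  · simp only [hΓ.tx ht hγ, hΓ.tx ht (hR.neg_mem hγ), hΓ.chi_neg]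
    simp [RS.one_app]
  · rintro n w n' w' - h' ⟨χ, a, b⟩ ⟨χ', a', b'⟩
    refine ⟨fun γ => χ (w' γ) * χ' γ, fun γ δ => by
      simp only [map_add, a _ _, a' _ _]; exact mul_mul_mul_comm _ _ _ _, fun γ hγ => ?_⟩
    obtain ⟨e', h1⟩ := b' γ hγ
    obtain ⟨e, h2⟩ := b _ (hR.map_mem h'.mem_W hγ)
    refine ⟨e * e', fun u => ⟨?_, ?_⟩⟩
    · have h3 := (h2 ((e' : ℤ) * χ' γ * id u)).1
      rw [← (h1 u).1] at h3
      refine Eq.trans (by simp only [_root_.mul_inv_rev, mul_assoc]) (h3.trans ?_)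
      congr 1
      simp; ring
    · have h3 := (h2 ((e' : ℤ) * ((χ' γ)⁻¹ : Kˣ) * id u)).2
      rw [← (h1 u).2] at h3
      refine Eq.trans (by simp only [_root_.mul_inv_rev, mul_assoc]) (h3.trans ?_)
      congr 1
      simp; ring
  · rintro n w h ⟨χ, a, b⟩
    refine ⟨fun γ => (χ (w⁻¹ γ))⁻¹, fun γ δ => by simp only [map_add, a _ _, mul_inv], fun γ hγ => ?_⟩
    obtain ⟨e, h1⟩ := b _ (hR.map_mem (inv_mem h.mem_W) hγ)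
    rw [RS.app_inv] at h1
    have h2 := sg_sq (K := K) e
    refine ⟨e, fun u => ⟨?_, ?_⟩⟩
    · have h3 := (h1 ((e : ℤ) * ((χ (w⁻¹ γ))⁻¹ : Kˣ) * u)).1
      rw [show ((e : ℤ) : K) * χ (w⁻¹ γ) * id (((e : ℤ) : K) * ((χ (w⁻¹ γ))⁻¹ : Kˣ) * u) = u by
        rw [id, ← mul_assoc, mul_mul_mul_comm, h2]; simp] at h3
      rw [← h3]
      simp [mul_assoc]
    · have h3 := (h1 ((e : ℤ) * (χ (w⁻¹ γ) : Kˣ) * u)).2
      rw [show ((e : ℤ) : K) * ((χ (w⁻¹ γ))⁻¹ : Kˣ) * id (((e : ℤ) : K) * χ (w⁻¹ γ) * u) = u by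
        rw [id, ← mul_assoc, mul_mul_mul_comm, h2]; simp] at h3
      rw [← h3]
      simp [mul_assoc]

theorem cell_ex (g : G) : ∃ w, Cell Γ g w :=
  let ⟨u, hu, n, w, hn, u', hu', e⟩ := hΓ.bruhat hR g
  ⟨w, u, RG.U_le_Bo hu, n, u', RG.U_le_Bo (RG.X_le_U (RS.cl_Inv _).1 hu'), hn, e⟩

theorem cell_uniq : Cell Γ g w → Cell Γ g w' → w = w' := by
  rintro ⟨a, ha, n, a', ha', hn, rfl⟩ ⟨c, hc, m, c', hc', hm, e⟩
  exact hΓ.cell_eq' hR hm hn (mul_mem (inv_mem ha) hc) (mul_mem hc' (inv_mem ha')) (by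
    rw [show n = a⁻¹ * (a * n * a') * a'⁻¹ by group, e]; group)

theorem cell_one : Cell Γ g 1 → g ∈ Γ.Bo := by
  rintro ⟨a, ha, n, a', ha', hn, rfl⟩
  exact mul_mem (mul_mem ha (RG.T_le_Bo (hΓ.rep_one hR hn))) ha'

theorem cell_nf (hg : Cell Γ g w) (hn : Γ.Rep n w) :
    ∃ b ∈ Γ.Bo, ∃ d ∈ Γ.X (R.Inv w), g = b * n * d := by
  obtain ⟨a, ha, m, a', ha', hm, rfl⟩ := hg
  obtain ⟨u, hu, t, ht, rfl⟩ := hΓ.mem_Bo.1 ha'
  obtain ⟨c, hc, d, hd, e⟩ := hΓ.split_UJ hR (J := Set.univ) hn.mem_W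
    ((RG.UJ_univ (Γ := Γ)).ge (hΓ.nm_T_X _ _ (inv_mem ht) u hu))
  refine ⟨_, mul_mem (mul_mem ha (RG.T_le_Bo (hΓ.rep_div hR (hm.mul_T ht) hn).1))
    (RG.U_le_Bo (hΓ.conj_U hR hn (RG.X_mono (fun _ e _ => e.2) hc))), d,
    RG.X_mono (fun _ e _ => e.2) hd, ?_⟩
  rw [show u = t * (t⁻¹ * u * t⁻¹⁻¹) * t⁻¹ by group, e]
  group

theorem cell_step {i : Fin R.r} (hg : Cell Γ g w) (hh : Cell Γ h (R.sE i)) :
    Cell Γ (g * h) (w * R.sE i) ∨ (Cell Γ (g * h) w ∧ w (R.α i) ≤ 0) := by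
  obtain ⟨a, ha, n, a', ha', hn, rfl⟩ := hg
  obtain ⟨c, hc, d, hd, rfl⟩ := cell_nf hΓ hR hh (RG.rep_n i)
  have h1 : d ∈ Γ.Bo := RG.U_le_Bo (RG.X_le_U (RS.cl_Inv _).1 hd)
  rw [show a * n * a' * (c * Γ.n i * d) = a * (n * (a' * c) * Γ.n i) * d by group]
  rcases hR.sign' hn.mem_W (hR.simple i) with e | e
  · obtain ⟨u, hu, t, ht, e'⟩ := hΓ.mem_Bo.1 (mul_mem ha' hc)
    obtain ⟨p, hp, q, hq, h2⟩ := hΓ.cell_mul hR (J := Set.univ) hn ((RG.rep_n i).T_mul ht) (by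
      rw [hR.sE_inv, hR.Inv_sE, Set.disjoint_singleton_right]
      exact fun c => hR.not_both (hR.map_mem hn.mem_W (hR.simple i)) e c.2.2) hn.mem_W
      (RS.sE_mem_W i) (RG.UJ_univ (Γ := Γ) ▸ hu)
    rw [e', ← mul_assoc n, mul_assoc (n * u), h2]
    exact Or.inl (cell_r h1 (cell_l ha ⟨p, RG.U_le_Bo (RG.UJ_le _ hp), _, q,
      RG.U_le_Bo (RG.UJ_le _ hq), hn.mul ((RG.rep_n i).T_mul ht), rfl⟩))
  · obtain ⟨p, hp, q, hq, h2 | h2⟩ := hΓ.cell_Bo hR hn i (mul_mem ha' hc)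
    · exact Or.inl (cell_r h1 (cell_l ha ⟨p, hp, _, q, hq, hn.mul (RG.rep_n i), h2⟩))
    · exact Or.inr ⟨cell_r h1 (cell_l ha ⟨p, hp, _, q, hq, hn, h2⟩), e⟩

theorem cell_PJ (hg : Cell Γ g w) : w ∈ R.WJ J ↔ g ∈ PJ Γ J := by
  have h0 : Γ.Bo ≤ PJ Γ J := sup_le le_sup_right ((le_sup_right : Γ.T ≤ Γ.GJ J).trans le_sup_left)
  refine ⟨fun hw => ?_, fun h => ?_⟩
  · obtain ⟨a, ha, n, a', ha', hn, rfl⟩ := hg
    exact mul_mem (mul_mem (h0 ha) (mem_sup_left (hΓ.NJ_le hR (hΓ.rep_NJ hR hn hw)))) (h0 ha')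
  have h1 : ∀ l : List (Fin R.r), (∀ i ∈ l, i ∈ J) → ∀ g, (∃ w ∈ R.WJ J, Cell Γ g w) →
      ∃ w ∈ R.WJ J, Cell Γ (g * Γ.nd l) w := fun l => by
    induction l with
    | nil => exact fun _ g h => by simpa [RG.nd] using h
    | cons i l ih =>
      rintro hl g ⟨w, hw, hg⟩
      rw [RG.nd_cons, ← mul_assoc]
      refine ih (fun j hj => hl j (List.mem_cons_of_mem _ hj)) _ ?_
      rcases cell_step hΓ hR hg (cell_rep (RG.rep_n i)) with e | e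
      · exact ⟨_, mul_mem hw (RS.sE_mem (hl i List.mem_cons_self)), e⟩
      · exact ⟨_, hw, e.1⟩
  let C : Subgroup G :=
    { carrier := {g | ∃ w ∈ R.WJ J, Cell Γ g w}
      one_mem' := ⟨1, one_mem _, cell_Bo (one_mem _)⟩
      inv_mem' := fun ⟨w, a, b⟩ => ⟨_, inv_mem a, cell_inv b⟩
      mul_mem' := by
        rintro g h ⟨w, a, b⟩ ⟨w', a', b'⟩
        obtain ⟨l, hl, rfl⟩ := hR.exists_wd a'
        obtain ⟨c, hc, d, hd, rfl⟩ := cell_nf hΓ hR b' (RG.rep_nd l)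
        obtain ⟨v, hv, e⟩ := h1 l hl _ ⟨w, a, cell_r hc b⟩
        exact ⟨v, hv, by
          simpa only [mul_assoc] using cell_r (RG.U_le_Bo (RG.X_le_U (RS.cl_Inv _).1 hd)) e⟩ }
  obtain ⟨v, hv, e⟩ := (sup_le (fun g hg => by
    obtain ⟨u, hu, n, w, hw, hn, u', hu', e⟩ := hΓ.bruhatJ hR hg
    exact ⟨w, hw, u, RG.U_le_Bo (RG.UJ_le _ hu), n, u',
      RG.U_le_Bo (RG.X_le_U (RS.cl_Inv _).1 hu'), hn, e⟩)
    (fun g hg => ⟨1, one_mem _, cell_Bo (RG.U_le_Bo hg)⟩) : PJ Γ J ≤ C) h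
  exact cell_uniq hΓ hR e hg ▸ hv

theorem cell_apt {n₀ : G} {w₀ : R.Aut} (h₀ : Γ.Rep n₀ w₀) (hw : R.Lg Set.univ w₀) (hn : Γ.Rep n w)
    (h1 : Cell Γ g w⁻¹) (h2 : Cell Γ (g * n₀) (w⁻¹ * w₀)) : g * n ∈ Γ.Bo := by
  obtain ⟨b, hb, d, hd, rfl⟩ := cell_nf hΓ hR h1 hn.inv
  obtain ⟨b', hb', d', hd', e⟩ := cell_nf hΓ hR h2 (hn.inv.mul h₀)
  obtain ⟨u, hu, t, ht, e'⟩ := hΓ.mem_Bo.1 (mul_mem (inv_mem hb') hb)
  have h3 := mul_mem (hΓ.conj_V hR (hn.inv.mul h₀) hd') (inv_mem (hΓ.conj_V hR hn.inv hd))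
  have h4 : n⁻¹ * n₀ * d' * (n⁻¹ * n₀)⁻¹ * (n⁻¹ * d * n⁻¹⁻¹)⁻¹ = u * t := by
    rw [← e', show b = b * n⁻¹ * d * n₀ * (n⁻¹ * d * n₀)⁻¹ by group, e]
    group
  obtain ⟨rfl, rfl⟩ := hΓ.tri u hu t ht (h4 ▸ h3)
  have h5 : d = n₀ * d' * n₀⁻¹ := by
    rw [show d = n * (n⁻¹ * d * n⁻¹⁻¹) * n⁻¹ by group, ← mul_inv_eq_one.1 (h4.trans (mul_one 1))]
    group
  obtain rfl : d = 1 := hΓ.U_inf_V (RG.X_le_U (RS.cl_Inv _).1 hd) (h5 ▸ RG.VJ_le _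
    (hΓ.Lg_U hR h₀ hw (RG.UJ_univ (Γ := Γ) ▸ RG.X_le_U (RS.cl_Inv _).1 hd')))
  simpa using hb

variable {ψ : G →* G} {σ : K →+* K} {c : Fin R.r → Kˣ} (hs : Std Γ ψ σ g c π)
include hs

theorem std_nm : Nm Γ R.Φ (fun v => g⁻¹ * ψ v * g) σ (pa R π) (ch c) := by
  refine rt_ind hR (fun i => ⟨1, fun u => ?_⟩) fun i γ hγ ⟨e, h1⟩ => ?_
  · have := ch_α c i 1
    rw [one_smul, zpow_one] at this
    simp [hs.2 i u, pa_app, pm_α, this, mul_assoc]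
  obtain ⟨a, h2⟩ := hΓ.nx i γ hγ
  have h0 := pm_mem hR hs.1 γ hγ
  obtain ⟨a', h3⟩ := hΓ.nx (π i) _ h0
  have h4 := sg_sq (K := K) a
  have h5 : R.pr (R.s (π i) (pm π γ)) (π i) = -R.pr γ i := by
    rw [← pm_s hs.1, pm_pr hs.1, RS.s, sub_eq_add_neg, ← neg_smul, RS.pr_add, RS.pr_smul, RS.pr_α,
      hR.diag]
    ring
  have h6 : ∀ v, g⁻¹ * ψ (Γ.n i * v * (Γ.n i)⁻¹) * g = Γ.h (π i) (c i) *
      (Γ.n (π i) * (g⁻¹ * ψ v * g) * (Γ.n (π i))⁻¹) * (Γ.h (π i) (c i))⁻¹ := fun v => by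
    rw [map_mul, map_mul, map_inv, std_n hΓ hs]
    group
  refine ⟨a' * e * a, fun u => ⟨?_, ?_⟩⟩
  · have h7 := h6 (Γ.x γ ((a : ℤ) * u))
    rw [(h2 _).1, ← mul_assoc, h4, one_mul, show g⁻¹ * ψ _ * g = _ from (h1 _).1, pa_app, (h3 _).1,
      hΓ.hx _ _ _ (hR.refl _ _ h0), h5] at h7
    rw [pa_app, pm_s hs.1, ch_s]
    refine h7.trans (congrArg _ ?_)
    simp; ring
  · have h7 := h6 (Γ.x (-γ) ((a : ℤ) * u))
    rw [(h2 _).2, ← mul_assoc, h4, one_mul, show g⁻¹ * ψ _ * g = _ from (h1 _).2, pa_app, (h3 _).2,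
      hΓ.hx _ _ _ (hR.neg_mem (hR.refl _ _ h0)), RS.pr_neg, h5] at h7
    rw [pa_app, pm_s hs.1, ch_s]
    refine h7.trans (congrArg _ ?_)
    simp; ring

theorem std_Bo (hb : b ∈ Γ.Bo) : g⁻¹ * ψ b * g ∈ Γ.Bo := by
  obtain ⟨u, hu, t, ht, rfl⟩ := hΓ.mem_Bo.1 hb
  simpa [mul_assoc] using mul_mem (RG.U_le_Bo (std_X hΓ hs hR (fun _ e _ => pm_nonneg e) hu))
    (RG.T_le_Bo (std_T hΓ hs ht))

theorem std_rep (hn : Γ.Rep n w) : Γ.Rep (g⁻¹ * ψ n * g) (pa R π * w * (pa R π)⁻¹) := by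
  refine hn.ind (P := fun n w => Γ.Rep (g⁻¹ * ψ n * g) (pa R π * w * (pa R π)⁻¹)) (fun i => ?_)
    (fun t ht => by simpa using RG.rep_T (std_T hΓ hs ht))
    (fun n w n' w' _ _ a b => by simpa [mul_assoc] using a.mul b)
    fun n w _ a => by simpa [mul_assoc] using a.inv
  rw [← pa_sE hR hs.1, std_n hΓ hs]
  simpa [mul_assoc] using (RG.rep_n (π i)).T_mul (RG.h_mem (π i) (c i))

theorem std_cell : Cell Γ h w → Cell Γ (g⁻¹ * ψ h * g) (pa R π * w * (pa R π)⁻¹) := by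
  rintro ⟨a, ha, n, a', ha', hn, rfl⟩
  exact ⟨_, std_Bo hΓ hR hs ha, _, _, std_Bo hΓ hR hs ha', std_rep hΓ hR hs hn, by
    simp [mul_assoc]⟩

omit hΓ hR hs

theorem nmx : NMX := fun R K G _ _ Γ hR hΓ ψ σ g c π a hs hg => by
  obtain ⟨χ, h1, h2⟩ := rep_nm hΓ hR hg
  refine ⟨fun γ => χ (pa R π γ) * ch c γ, fun γ δ => by
    simp only [map_add, h1 _ _, ch_add]; exact mul_mul_mul_comm _ _ _ _, fun γ hγ => ?_⟩
  obtain ⟨e', h3⟩ := std_nm hΓ hR hs γ hγ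
  obtain ⟨e, h4⟩ := h2 _ (pm_mem hR hs.1 γ hγ)
  refine ⟨e * e', fun u => ⟨?_, ?_⟩⟩
  · have h5 := (h4 ((e' : ℤ) * ch c γ * σ u)).1
    rw [← pa_app, ← (h3 u).1] at h5
    refine Eq.trans (by simp only [mul_assoc, mul_inv_cancel_left, mul_inv_cancel, mul_one])
      (h5.trans ?_)
    congr 1
    simp; ring
  · have h5 := (h4 ((e' : ℤ) * ((ch c γ)⁻¹ : Kˣ) * σ u)).2
    rw [← pa_app, ← (h3 u).2] at h5
    refine Eq.trans (by simp only [mul_assoc, mul_inv_cancel_left, mul_inv_cancel, mul_one])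
      (h5.trans ?_)
    congr 1
    simp; ring

theorem blg : BLG := fun R K G _ _ Γ hR hΓ => by
  choose f hf using cell_ex hΓ hR
  have h0 : ∀ {g w}, Cell Γ g w → f g = w := fun h => cell_uniq hΓ hR (hf _) h
  have h1 : ∀ {g}, f g = 1 → g ∈ Γ.Bo := fun h => cell_one hΓ hR (h ▸ hf _)
  refine ⟨fun y z => f (y⁻¹ * z), ⟨fun x y => cell_W (hf _),
    fun x => h0 (cell_Bo (by simp [one_mem])), fun x y => h0 (by simpa using cell_inv (hf (x⁻¹ * y))),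
    fun x y z h => h0 (by simpa [mul_assoc] using cell_r (h1 h) (hf (x⁻¹ * y))),
    fun x y z i h => ?_, fun x y i => ?_⟩, fun y z w => ⟨h0, fun h => h ▸ hf _⟩,
    fun J y z => cell_PJ hΓ hR (hf _), fun ψ σ g c π hs => ⟨hs.1, fun x y => h0 (by
      simpa [mul_assoc] using std_cell hΓ hR hs (hf (x⁻¹ * y)))⟩, fun x z n₀ w₀ h2 h3 h4 => ?_⟩
  · have := cell_step hΓ hR (hf (x⁻¹ * y)) (h ▸ hf (y⁻¹ * z))
    rw [show x⁻¹ * y * (y⁻¹ * z) = x⁻¹ * z by group] at this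
    exact this.imp h0 fun e => ⟨h0 e.1, e.2⟩
  · obtain ⟨b, hb, n, b', hb', hn, e⟩ := hf (x⁻¹ * y)
    refine ⟨y * b'⁻¹ * Γ.n i, h0 ?_, h0 ?_⟩
    · simpa [mul_assoc] using cell_l (inv_mem hb') (cell_rep (RG.rep_n i))
    · rw [show x⁻¹ * (y * b'⁻¹ * Γ.n i) = b * (n * Γ.n i) by
        rw [← mul_assoc, ← mul_assoc, e]; group]
      exact cell_l hb (cell_rep (hn.mul (RG.rep_n i)))
  · obtain ⟨b, hb, d, hd, e⟩ := cell_nf hΓ hR (hf (x⁻¹ * z)) ((show f _ = _ from h4) ▸ h2)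
    have h5 : d ∈ Γ.Bo := RG.U_le_Bo (RG.X_le_U (RS.cl_Inv _).1 hd)
    have h6 : z = x * b * n₀ * d := by rw [mul_assoc, mul_assoc, ← mul_assoc b, ← e]; group
    refine ⟨x * b, h0 (cell_Bo (by simpa using hb)), h0 (cell_Bo (by simpa [h6, mul_assoc] using h5)),
      fun y hy n hn => h0 (cell_Bo ?_)⟩
    rw [← mul_assoc]
    refine cell_apt hΓ hR h2 h3 hn ?_ ?_
    · simpa [mul_assoc] using cell_r hb (cell_inv (hf (x⁻¹ * y)))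
    · rw [← hy, inv_mul_cancel_left]
      simpa [h6, mul_assoc] using cell_r (inv_mem h5) (hf (y⁻¹ * z))

end Vale.Agent.P011UBL
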